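import Mathlib

/-! Definitions for the proof of (CHEB) (P038, broadcast 44).
`R a b` : `b` is in the closed out-neighbourhood of `a`. -/

namespace Vale.Agent.P038.LeadS

open Finset

variable {V : Type*} [Fintype V] [DecidableEq V]

noncomputable def W (w : V → ℝ) (S : Finset V) : ℝ := ∑ v ∈ S, w v

open Classical in
/-- closed out-neighbourhood of a set -/
noncomputable def N (R : V → V → Prop) (X : Finset V) : Finset V :=
  univ.filter fun z => ∃ x ∈ X, R x z

/-- product measure -/
noncomputable def mu (p w : V → ℝ) (X : Finset (V × V)) : ℝ := ∑ q ∈ X, p q.1 * w q.2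

open Classical in
/-- second coordinate forward -/
noncomputable def E (R : V → V → Prop) (X : Finset (V × V)) : Finset (V × V) :=
  univ.filter fun q => ∃ t, R t q.2 ∧ (q.1, t) ∈ X

open Classical in
/-- erosion in the first coordinate (J*) -/
noncomputable def Js (R : V → V → Prop) (X : Finset (V × V)) : Finset (V × V) :=
  univ.filter fun q => ∀ z, R z q.1 → (z, q.2) ∈ X

open Classical in
/-- suppliers in `Q` adjacent to the demand set `O` -/
noncomputable def adj (R : V → V → Prop) (Q O : Finset V) : Finset V :=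
  Q.filter fun v => ∃ a ∈ O, R a v

/-- fair allocation of demands `O` from suppliers `Q` -/
structure Fair (R : V → V → Prop) (p : V → ℝ) (O Q : Finset V) (f : V → V → ℝ) : Prop where
  nonneg : ∀ v a, 0 ≤ f v a
  supp : ∀ v a, f v a ≠ 0 → v ∈ Q ∧ a ∈ O ∧ R a v
  total : ∀ v ∈ Q, (∃ a ∈ O, R a v) → ∑ a, f v a = p v
  fair : ∀ v a b, 0 < f v a → b ∈ O → R b v → (∑ u, f u a) / p a ≤ (∑ u, f u b) / p b

end Vale.Agent.P038.LeadS
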